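import Vale.Agent.P237.Petty.Cor.Band20.N22g.Data
import Vale.Agent.P237.Petty.Cor.Band20.Good
import Vale.Agent.P237.Petty.Cor.Few.Mask

/-!
# P237: certificates, dimensions 22 to 24, values 37/2 to 24 over the dimension
-/

namespace Vale.Agent.P237.Petty.Cor.Band20.N22g

theorem checks0 : Checks data piece0 := by
  constructor
  ·
    exact ⟨
      .leaf,
      Few.certify_of_quick (by decide +kernel)⟩
  ·
    exact ⟨
      .leaf,
      Few.certify_of_quick (by decide +kernel)⟩
  ·
    exact ⟨
      .leaf,
      Few.certify_of_quick (by decide +kernel)⟩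
  ·
    exact ⟨
      .leaf,
      Few.certify_of_quick (by decide +kernel)⟩
  ·
    exact ⟨
      (.split 0 .leaf (.split 0 (.split 0 .leaf .leaf) .leaf)),
      Few.certify_of_quick (by decide +kernel)⟩
  ·
    exact ⟨
      .leaf,
      Few.certify_of_quick (by decide +kernel)⟩
  · intro i
    cases i
    ·
      exact ⟨
        (.split 2 (.split 2 .leaf (.split 2 (.split 2 .leaf (.split 2 (.split 2 .leaf (.split 2
        .leaf (.split 0 .leaf (.split 2 .leaf .leaf)))) (.split 2 (.split 2 (.split 0 (.split 2
        .leaf .leaf) (.split 2 (.split 0 (.split 0 (.split 2 .leaf .leaf) (.split 2 .leaf .leaf))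
        (.split 2 .leaf .leaf)) .leaf)) .leaf) .leaf))) .leaf)) .leaf),
        Few.certify_of_quick (by decide +kernel)⟩
    ·
      exact ⟨
        (.split 2 (.split 2 .leaf (.split 2 (.split 2 .leaf (.split 2 (.split 2 .leaf .leaf)
        (.split 2 (.split 2 (.split 0 (.split 2 .leaf .leaf) .leaf) .leaf) .leaf))) .leaf))
        .leaf),
        Few.certify_of_quick (by decide +kernel)⟩
  · intro i
    cases i
    ·
      exact ⟨
        .leaf,
        Few.certify_of_quick (by decide +kernel)⟩
    ·
      exact ⟨
        .leaf,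
        Few.certify_of_quick (by decide +kernel)⟩
  · intro h
    simp [piece0] at h
  ·
    exact ⟨
      .leaf,
      Few.certify_of_quick (by decide +kernel)⟩
  ·
    exact ⟨
      .leaf,
      Few.certify_of_quick (by decide +kernel)⟩

theorem checks1 : Checks data piece1 := by
  constructor
  ·
    exact ⟨
      .leaf,
      Few.certify_of_quick (by decide +kernel)⟩
  ·
    exact ⟨
      .leaf,
      Few.certify_of_quick (by decide +kernel)⟩
  ·
    exact ⟨
      .leaf,
      Few.certify_of_quick (by decide +kernel)⟩
  ·
    exact ⟨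
      .leaf,
      Few.certify_of_quick (by decide +kernel)⟩
  ·
    exact ⟨
      (.split 0 .leaf (.split 0 .leaf .leaf)),
      Few.certify_of_quick (by decide +kernel)⟩
  ·
    exact ⟨
      .leaf,
      Few.certify_of_quick (by decide +kernel)⟩
  · intro i
    cases i
    ·
      exact ⟨
        (.split 2 (.split 2 .leaf (.split 2 (.split 2 .leaf (.split 2 (.split 2 .leaf (.split 2
        .leaf (.split 0 (.split 2 .leaf (.split 0 (.split 0 (.split 2 .leaf .leaf) (.split 2
        .leaf .leaf)) (.split 0 (.split 2 .leaf .leaf) (.split 2 (.split 1 (.split 2 .leaf .leaf)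
        .leaf) .leaf)))) (.split 2 (.split 0 (.split 0 (.split 2 .leaf .leaf) (.split 2 .leaf
        (.split 0 (.split 2 .leaf .leaf) (.split 2 .leaf .leaf)))) (.split 0 (.split 2 .leaf
        (.split 2 .leaf .leaf)) (.split 2 (.split 2 .leaf (.split 0 .leaf .leaf)) (.split 2 .leaf
        .leaf)))) (.split 0 (.split 2 (.split 0 (.split 0 (.split 2 .leaf .leaf) .leaf) .leaf)
        .leaf) .leaf))))) (.split 2 (.split 2 (.split 0 (.split 2 .leaf .leaf) .leaf) .leaf)
        .leaf))) .leaf)) .leaf),
        Few.certify_of_quick (by decide +kernel)⟩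
    ·
      exact ⟨
        (.split 2 (.split 2 .leaf (.split 2 (.split 2 .leaf (.split 2 (.split 2 .leaf (.split 2
        .leaf (.split 0 .leaf .leaf))) .leaf)) .leaf)) .leaf),
        Few.certify_of_quick (by decide +kernel)⟩
  · intro i
    cases i
    ·
      exact ⟨
        .leaf,
        Few.certify_of_quick (by decide +kernel)⟩
    ·
      exact ⟨
        .leaf,
        Few.certify_of_quick (by decide +kernel)⟩
  · intro h
    simp [piece1] at h
  ·
    exact ⟨
      .leaf,
      Few.certify_of_quick (by decide +kernel)⟩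
  ·
    exact ⟨
      .leaf,
      Few.certify_of_quick (by decide +kernel)⟩

theorem checks2 : Checks data piece2 := by
  constructor
  ·
    exact ⟨
      .leaf,
      Few.certify_of_quick (by decide +kernel)⟩
  ·
    exact ⟨
      .leaf,
      Few.certify_of_quick (by decide +kernel)⟩
  ·
    exact ⟨
      .leaf,
      Few.certify_of_quick (by decide +kernel)⟩
  ·
    exact ⟨
      .leaf,
      Few.certify_of_quick (by decide +kernel)⟩
  ·
    exact ⟨
      (.split 0 .leaf .leaf),
      Few.certify_of_quick (by decide +kernel)⟩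
  ·
    exact ⟨
      .leaf,
      Few.certify_of_quick (by decide +kernel)⟩
  · intro i
    cases i
    ·
      exact ⟨
        (.split 2 (.split 2 .leaf (.split 2 (.split 2 .leaf (.split 2 (.split 2 .leaf (.split 2
        (.split 0 (.split 2 .leaf (.split 0 .leaf (.split 2 .leaf (.split 0 (.split 2 .leaf
        (.split 0 .leaf (.split 1 (.split 2 .leaf .leaf) .leaf))) (.split 2 .leaf (.split 0
        (.split 1 (.split 2 .leaf .leaf) .leaf) .leaf)))))) (.split 2 .leaf (.split 0 (.split 2
        (.split 0 .leaf (.split 2 .leaf .leaf)) (.split 0 (.split 2 (.split 0 (.split 2 .leaf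
        .leaf) (.split 2 .leaf .leaf)) .leaf) (.split 2 .leaf .leaf))) (.split 2 (.split 0
        (.split 2 .leaf .leaf) (.split 0 (.split 2 .leaf .leaf) (.split 2 .leaf .leaf)))
        .leaf)))) (.split 0 (.split 2 (.split 0 (.split 2 (.split 0 (.split 2 .leaf (.split 0
        (.split 1 (.split 2 .leaf .leaf) .leaf) .leaf)) (.split 2 (.split 0 (.split 1 (.split 2
        .leaf .leaf) .leaf) (.split 1 (.split 2 .leaf .leaf) .leaf)) .leaf)) .leaf) (.split 2
        (.split 0 (.split 2 .leaf .leaf) .leaf) .leaf)) .leaf) .leaf))) .leaf)) .leaf)) .leaf),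
        Few.certify_of_quick (by decide +kernel)⟩
    ·
      exact ⟨
        (.split 2 (.split 2 .leaf (.split 2 (.split 2 .leaf (.split 2 (.split 2 .leaf (.split 2
        (.split 0 (.split 2 .leaf .leaf) (.split 2 .leaf (.split 2 .leaf .leaf))) .leaf)) .leaf))
        .leaf)) .leaf),
        Few.certify_of_quick (by decide +kernel)⟩
  · intro i
    cases i
    ·
      exact ⟨
        .leaf,
        Few.certify_of_quick (by decide +kernel)⟩
    ·
      exact ⟨
        .leaf,
        Few.certify_of_quick (by decide +kernel)⟩
  · intro h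
    simp [piece2] at h
  ·
    exact ⟨
      .leaf,
      Few.certify_of_quick (by decide +kernel)⟩
  ·
    exact ⟨
      .leaf,
      Few.certify_of_quick (by decide +kernel)⟩

end Vale.Agent.P237.Petty.Cor.Band20.N22g
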